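import Mathlib
import Vale.Agent.P224.SM2.Alg

namespace Vale.Agent.P224.R2.H925

open Vale.Agent.P224.SM2

/-- a two point integrand; `P` is the power m of 1 / (1 - T s), and v = 1 - T s -/
noncomputable def gV (a0 a1 a2 a3 b0 b1 b2 b3 c0 c1 c2 c3 t p c v P : ℝ) : ℝ :=
  (a0 * P + b0 * (P * v) + c * (c0 * P))
  + (t + p) / 2 * (a1 * (P / v) + b1 * P + c * (c1 * (P / v)))
  + (t ^ 2 + p ^ 2) / 2 * (a2 * (P / v ^ 2) + b2 * (P / v) + c * (c2 * (P / v ^ 2)))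
  + (t ^ 3 + p ^ 3) / 2 * (a3 * (P / v ^ 3) + b3 * (P / v ^ 2) + c * (c3 * (P / v ^ 3)))

/-- its T derivative -/
noncomputable def gV' (m a0 a1 a2 a3 b0 b1 b2 b3 c0 c1 c2 c3 a0' a1' a2' a3' b0' b1' b2' b3' c0' c1' c2' c3'
    s t p c v P : ℝ) : ℝ :=
  (a0' * P + a0 * (m * s * (P / v)) + b0' * (P * v) + b0 * ((m - 1) * s * P)
    + c * (c0' * P + c0 * (m * s * (P / v))))
  + (t + p) / 2 * (a1' * (P / v) + a1 * ((m + 1) * s * (P / v ^ 2)) + b1' * P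
    + b1 * (m * s * (P / v)) + c * (c1' * (P / v) + c1 * ((m + 1) * s * (P / v ^ 2))))
  + (t ^ 2 + p ^ 2) / 2 * (a2' * (P / v ^ 2) + a2 * ((m + 2) * s * (P / v ^ 3)) + b2' * (P / v)
    + b2 * ((m + 1) * s * (P / v ^ 2)) + c * (c2' * (P / v ^ 2) + c2 * ((m + 2) * s * (P / v ^ 3))))
  + (t ^ 3 + p ^ 3) / 2 * (a3' * (P / v ^ 3) + a3 * ((m + 3) * s * (P / v ^ 4)) + b3' * (P / v ^ 2)
    + b3 * ((m + 2) * s * (P / v ^ 3)) + c * (c3' * (P / v ^ 3) + c3 * ((m + 3) * s * (P / v ^ 4))))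

/-- the rows -/
noncomputable def rV (m T f0 f2 f3 x0 x1 x2 h0 h1 h2 h3 s t p c v P : ℝ) : ℝ :=
  f0 * S1 m s t p c P (m * T * (P / v)) 0
  + f2 * S1 m s t p c (t ^ 2 * (P / v ^ 2)) (t ^ 2 * ((m + 2) * T * (P / v ^ 3))) (2 * t * (P / v ^ 2))
  + f3 * S1 m s t p c (t ^ 3 * (P / v ^ 3)) (t ^ 3 * ((m + 3) * T * (P / v ^ 4))) (3 * t ^ 2 * (P / v ^ 3))
  + x0 * S2 m s t p c P (m * T * (P / v)) 0
  + x1 * S2 m s t p c (t * (P / v)) (t * ((m + 1) * T * (P / v ^ 2))) (P / v)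
  + x2 * S2 m s t p c (t ^ 2 * (P / v ^ 2)) (t ^ 2 * ((m + 2) * T * (P / v ^ 3))) (2 * t * (P / v ^ 2))
  + h0 * CC m s t p c P (m * T * (P / v)) 0
  + h1 * CC m s t p c (t * (P / v)) (t * ((m + 1) * T * (P / v ^ 2))) (P / v)
  + h2 * CC m s t p c (t ^ 2 * (P / v ^ 2)) (t ^ 2 * ((m + 2) * T * (P / v ^ 3))) (2 * t * (P / v ^ 2))
  + h3 * CC m s t p c (t ^ 3 * (P / v ^ 3)) (t ^ 3 * ((m + 3) * T * (P / v ^ 4))) (3 * t ^ 2 * (P / v ^ 3))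

/-- the defect -/
noncomputable def fV (m T d x1 x2 h0 k1 f2 f3 s t p c v P : ℝ) : ℝ :=
  ((x1 * (P / v) + 2 * x2 * t * (P / v ^ 2)) * (c - s - d * t) ^ 2
    + (x1 * (P / v) + 2 * x2 * p * (P / v ^ 2)) * (c - s - d * p) ^ 2) / 2
  - (p - t) ^ 2 / 2 * (m * h0 * (P / v) + ((m + 1) * k1 * (p + t) + 2 * T * f2) * (P / v ^ 2)
    + (m + 2) * T * f2 * (p * t) * (P / v ^ 3) + 3 * T * f3 * (p + t) * (P / v ^ 3)
    + (m + 3) * T * f3 * (p * t) * (p + t) * (P / v ^ 4)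
    + c * ((2 * f2 + (m + 1) * T * x1) * (P / v ^ 2)
      + (3 * f3 + (m + 2) * T * x2) * (p + t) * (P / v ^ 3)))

theorem key (m T d v P s t p c : ℝ) (f2 f3 x1 x1' x2 x2' h0 b0 : ℝ)
    (f2' f3' h0' b0' b1 b1' k k' k1 k1' k0 k0' f0 f0' x0 : ℝ)
    (hT : T ≠ 0) (hw : 1 - T ^ 2 ≠ 0) (hm : m ≠ 0) (hn : m + 1 ≠ 0) (hn2 : m + 2 ≠ 0) (hv : v ≠ 0)
    (hvs : v = 1 - T * s)
    (h1 : f3' = ((2 - (m + 2) * T ^ 2) * f3 + (m + 2) * T * x2 + 2 * T ^ 2 * f3) / (T * (1 - T ^ 2)))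
    (h3 : b1 = -(2 * (1 + T ^ 2) / ((m + 1) * (m + 2) * T ^ 2)) * f3 - 2 * d ^ 2 * T / (m + 1) * x2
      + 2 * (4 - d ^ 2 * (1 - T ^ 2)) / (m * (m + 1)) * x2' - 4 / m * d * x1)
    (h4 : b1' = m / T * b1 - 2 * x2 / T ^ 2 + 2 * d / T * x1)
    (h5 : f2' = ((1 - (m + 1) * T ^ 2) * f2 + 4 * d * x2 + (m + 1) * T * x1 + 2 * T ^ 2 * f2)
      / (T * (1 - T ^ 2)))
    (hk : k = 4 * d / ((m + 1) * T) * x2 - 8 * d / (m * (m + 1)) * x2')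
    (h7 : k' = ((1 - T ^ 2) * f2 / ((m + 1) * T ^ 2) + (4 - d ^ 2 * (1 - T ^ 2)) / m * x1'
      - (2 / (m * T) + d ^ 2 / m * ((m - 1) * T - 1 / T)) * x1 - (m - 1) * b0
      - 4 * d * x2 / ((m + 1) * T ^ 2) - ((m + 1) * T ^ 2 - 1) / T * k - (1 - T ^ 2) / T * h0
      + 2 * T * k) / (1 - T ^ 2))
    (h8 : b0' = (m - 1) / T * b0 - x1 / T ^ 2)
    (h9 : h0' = (2 * x1' / m - m * T * h0 + 2 * T * h0) / (1 - T ^ 2))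
    (hk1 : k1 = 2 / (m + 1) * (m * f3 / ((m + 2) * T) - (1 - d ^ 2) * x2))
    (hk1' : k1' = 2 / (m + 1) * (m * (f3' / T - f3 / T ^ 2) / (m + 2) - (1 - d ^ 2) * x2'))
    (hk0 : k0 = f2 / ((m + 1) * T) - (1 - d ^ 2) / m * x1 + k)
    (hk0' : k0' = (f2' / T - f2 / T ^ 2) / (m + 1) - (1 - d ^ 2) / m * x1' + k')
    (hf0 : f0 = (k0 - h0) / T) (hf0' : f0' = (k0' - h0') / T - (k0 - h0) / T ^ 2)
    (hx0 : x0 = (4 * x2' / (m + 1) - (1 - T ^ 2) * k1' - (m - 1) * T * k1 - 2 * d * x1) / (m * T)) :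
    gV' m
      -- a
      ((1 - T ^ 2) * f0 - (1 + T ^ 2) * x1 / (m * T)) (-(2 * (1 + T ^ 2) * x2 / ((m + 1) * T)))
      ((1 - T ^ 2) * f2) ((1 - T ^ 2) * f3)
      -- b
      b0 b1 (-((1 - T ^ 2) * f2 + 8 * d * x2) / (m + 1)) (-(2 * (1 - T ^ 2) * f3) / (m + 2))
      -- c
      (2 * x1 / m - (1 - T ^ 2) * h0) (4 * x2 / (m + 1) - (1 - T ^ 2) * k1)
      (T * (1 - T ^ 2) * f2) (T * (1 - T ^ 2) * f3)
      -- a'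
      (-(2 * T) * f0 + (1 - T ^ 2) * f0' - 2 * T * x1 / (m * T) - (1 + T ^ 2) * (x1' / T - x1 / T ^ 2) / m)
      (-(2 * (2 * T) * x2 / ((m + 1) * T)) - 2 * (1 + T ^ 2) * (x2' / T - x2 / T ^ 2) / (m + 1))
      (-(2 * T) * f2 + (1 - T ^ 2) * f2') (-(2 * T) * f3 + (1 - T ^ 2) * f3')
      -- b'
      b0' b1' (-(-(2 * T) * f2 + (1 - T ^ 2) * f2' + 8 * d * x2') / (m + 1))
      (-(2 * (-(2 * T) * f3 + (1 - T ^ 2) * f3')) / (m + 2))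
      -- c'
      (2 * x1' / m + 2 * T * h0 - (1 - T ^ 2) * h0') (4 * x2' / (m + 1) + 2 * T * k1 - (1 - T ^ 2) * k1')
      ((1 - 3 * T ^ 2) * f2 + T * (1 - T ^ 2) * f2') ((1 - 3 * T ^ 2) * f3 + T * (1 - T ^ 2) * f3')
      s t p c v P
    = -((rV m T f0 f2 f3 x0 x1 x2 h0 k1 (-(T * f2)) (-(T * f3)) s t p c v P
        + rV m T f0 f2 f3 x0 x1 x2 h0 k1 (-(T * f2)) (-(T * f3)) s p t c v P) / 2
      + fV m T d x1 x2 h0 k1 f2 f3 s t p c v P) := by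
  have hs : s = (1 - v) / T := by rw [hvs]; field_simp; ring
  subst hx0 hf0' hf0 hk0' hk0 hk1' hk1 h9 h8 h7 hk h5 h4 h3 h1 hs
  simp only [gV', rV, fV, S1, S2, CC]
  field_simp
  ring

end Vale.Agent.P224.R2.H925
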