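import Vale.Agent.P224.R2.H925.Blk
import Vale.Agent.P224.R2.H627.Tab17
import Vale.Agent.P224.R2.H424.Tls6

/-!
Tables of the near range in even dimensions: mean normal at most 3/100 for 18..32, 1/50 for 34, 36.
-/

namespace Vale.Agent.P224.R2.H925.TbE

open Vale.Agent.P224.R2.H728 Vale.Agent.P224.R2.H627 Vale.Agent.P224.R2.H925
open Vale.Agent.P224.R2.H424.Tls (relD)

set_option maxRecDepth 100000

/-- dimension 18: parameters -/
def p18 : ParQ :=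
  ⟨18, 17951 / 100000, 17953 / 100000, 500191 / 1000000, 3 / 100, 0, 9 / 50, 1 / 100000, 1 / 100000, 99 / 400, 2557 / 100000, (-1), (-1)⟩

/-- dimension 18: the law -/
def laws18 : List LawQ :=
  [⟨3033 / 6250, 76171 / 50000, 320 / 2831, 167 / 1250, 421 / 5000000000, 1 / 100000, 1, 1⟩]

/-- dimension 18: the boxes of the mean normal law -/
def els18 : List (ElQ × ℚ × ℚ) := [
  (⟨1 / 25, 1 / 80, 23541 / 10000, 8753 / 10000⟩, 13541 / 10000, 943 / 100000),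
  (⟨3 / 50, 23 / 2000, 25089 / 10000, 2173 / 2500⟩, 15089 / 10000, 177 / 12500),
  (⟨9 / 100, 1 / 100, 27257 / 10000, 8567 / 10000⟩, 17257 / 10000, 2129 / 100000),
  (⟨17 / 100, 3 / 400, 2036 / 625, 993 / 1250⟩, 1411 / 625, 2037 / 50000)]

/-- dimension 18: the cells -/
def cols18 : List ColQ := [
  ⟨1 / 25, [
    ⟨1 / 80, 13541 / 10000, 841 / 100000, 3 / 100, 0, 0, true⟩,
    ⟨1 / 40, 13541 / 10000, 1189 / 100000, 3 / 100, 0, 0, false⟩,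
    ⟨19 / 500, 13541 / 10000, 733 / 50000, 3 / 100, 0, 0, false⟩]⟩,
  ⟨3 / 50, [
    ⟨23 / 2000, 15089 / 10000, 807 / 100000, 3 / 100, 0, 1, true⟩,
    ⟨11 / 500, 15089 / 10000, 279 / 25000, 3 / 100, 0, 0, false⟩,
    ⟨19 / 500, 15089 / 10000, 733 / 50000, 3 / 100, 0, 0, false⟩]⟩,
  ⟨9 / 100, [
    ⟨1 / 100, 17257 / 10000, 47 / 6250, 3 / 100, 0, 2, true⟩,
    ⟨2 / 125, 17257 / 10000, 951 / 100000, 3 / 100, 0, 0, false⟩,
    ⟨1 / 25, 17257 / 10000, 47 / 3125, 3 / 100, 0, 0, false⟩]⟩,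
  ⟨17 / 100, [
    ⟨3 / 400, 1411 / 625, 163 / 25000, 3 / 100, 0, 3, true⟩,
    ⟨23 / 2000, 1411 / 625, 807 / 100000, 3 / 100, 0, 0, false⟩,
    ⟨29 / 1000, 1411 / 625, 1281 / 100000, 3 / 100, 0, 0, false⟩,
    ⟨21 / 500, 1411 / 625, 1541 / 100000, 3 / 100, 0, 0, false⟩]⟩,
  ⟨249 / 1000, [
    ⟨23 / 500, 221 / 80, 1613 / 100000, 3 / 100, 0, 0, false⟩]⟩]

/-- dimension 18: the row of numbers -/
def r18 : NRow := ⟨18, 3033 / 6250, 76171 / 50000, 17951 / 100000, 17953 / 100000, 500191 / 1000000⟩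

theorem r18_ok : nrowOK 17 17 17 17 17 r18 = true :=
  List.all_eq_true.1 tab17_ok _ (List.mem_iff_getElem.2 ⟨1, by decide, rfl⟩)

theorem row18 : rowOK r18 p18 laws18 (relD r18.m) = true := by decide +kernel

theorem ok18 : nearOK p18 laws18 (els18.map Prod.fst) cols18 = true := by decide +kernel

theorem el18 : e7All p18.m els18 = true := by decide +kernel

/-- dimension 20: parameters -/
def p20 : ParQ :=
  ⟨20, 17801 / 100000, 17803 / 100000, 497197 / 1000000, 3 / 100, 0, 9 / 50, 1 / 100000, 1 / 100000, 19 / 80, 699 / 25000, (-1), (-1)⟩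

/-- dimension 20: the law -/
def laws20 : List LawQ :=
  [⟨54809 / 100000, 83823 / 50000, 352 / 3423, 671 / 5000, 191 / 100000000, 1 / 100000, 1, 1⟩]

/-- dimension 20: the boxes of the mean normal law -/
def els20 : List (ElQ × ℚ × ℚ) := [
  (⟨1 / 25, 3 / 200, 4769 / 2000, 8763 / 10000⟩, 2769 / 2000, 179 / 20000),
  (⟨13 / 200, 11 / 1000, 5181 / 2000, 4377 / 5000⟩, 3181 / 2000, 91 / 6250),
  (⟨21 / 200, 9 / 1000, 7231 / 2500, 8571 / 10000⟩, 4731 / 2500, 2361 / 100000),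
  (⟨37 / 200, 1 / 125, 34483 / 10000, 783 / 1000⟩, 24483 / 10000, 2111 / 50000)]

/-- dimension 20: the cells -/
def cols20 : List ColQ := [
  ⟨1 / 25, [
    ⟨3 / 200, 2769 / 2000, 419 / 50000, 3 / 100, 0, 0, true⟩,
    ⟨21 / 500, 2769 / 2000, 701 / 50000, 3 / 100, 0, 0, false⟩]⟩,
  ⟨13 / 200, [
    ⟨11 / 1000, 3181 / 2000, 359 / 50000, 3 / 100, 0, 1, true⟩,
    ⟨1 / 50, 3181 / 2000, 967 / 100000, 3 / 100, 0, 0, false⟩,
    ⟨21 / 500, 3181 / 2000, 701 / 50000, 3 / 100, 0, 0, false⟩]⟩,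
  ⟨21 / 200, [
    ⟨9 / 1000, 4731 / 2500, 649 / 100000, 3 / 100, 0, 2, true⟩,
    ⟨3 / 250, 4731 / 2500, 749 / 100000, 3 / 100, 0, 0, false⟩,
    ⟨4 / 125, 4731 / 2500, 153 / 12500, 3 / 100, 0, 0, false⟩]⟩,
  ⟨37 / 200, [
    ⟨1 / 125, 24483 / 10000, 153 / 25000, 3 / 100, 0, 3, true⟩,
    ⟨13 / 500, 24483 / 10000, 1103 / 100000, 3 / 100, 0, 0, false⟩,
    ⟨23 / 500, 24483 / 10000, 1467 / 100000, 3 / 100, 0, 0, false⟩]⟩,
  ⟨239 / 1000, [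
    ⟨1 / 20, 7031 / 2500, 1529 / 100000, 3 / 100, 0, 0, false⟩]⟩]

/-- dimension 20: the row of numbers -/
def r20 : NRow := ⟨20, 54809 / 100000, 83823 / 50000, 17801 / 100000, 17803 / 100000, 497197 / 1000000⟩

theorem r20_ok : nrowOK 17 17 17 17 17 r20 = true :=
  List.all_eq_true.1 tab17_ok _ (List.mem_iff_getElem.2 ⟨3, by decide, rfl⟩)

theorem row20 : rowOK r20 p20 laws20 (relD r20.m) = true := by decide +kernel

theorem ok20 : nearOK p20 laws20 (els20.map Prod.fst) cols20 = true := by decide +kernel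

theorem el20 : e7All p20.m els20 = true := by decide +kernel

/-- dimension 22: parameters -/
def p22 : ParQ :=
  ⟨22, 17613 / 100000, 3523 / 20000, 247383 / 500000, 3 / 100, 0, 9 / 50, 1 / 100000, 1 / 100000, 2293 / 10000, 759 / 25000, (-1), (-1)⟩

/-- dimension 22: the law -/
def laws22 : List LawQ :=
  [⟨15161 / 25000, 5767 / 3125, 128 / 1357, 1373 / 10000, 293 / 10000000, 1 / 100000, 1, 1⟩]

/-- dimension 22: the boxes of the mean normal law -/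
def els22 : List (ElQ × ℚ × ℚ) := [
  (⟨1 / 20, 11 / 1000, 6261 / 2500, 2221 / 2500⟩, 3761 / 2500, 1067 / 100000),
  (⟨2 / 25, 1 / 100, 2757 / 1000, 1753 / 2000⟩, 1757 / 1000, 1711 / 100000),
  (⟨7 / 50, 1 / 125, 4019 / 1250, 4193 / 5000⟩, 2769 / 1250, 1509 / 50000)]

/-- dimension 22: the cells -/
def cols22 : List ColQ := [
  ⟨1 / 20, [
    ⟨11 / 1000, 3761 / 2500, 329 / 50000, 3 / 100, 0, 0, true⟩,
    ⟨3 / 200, 3761 / 2500, 24 / 3125, 3 / 100, 0, 0, false⟩,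
    ⟨11 / 250, 3761 / 2500, 329 / 25000, 3 / 100, 0, 0, false⟩]⟩,
  ⟨2 / 25, [
    ⟨1 / 100, 1757 / 1000, 627 / 100000, 3 / 100, 0, 1, true⟩,
    ⟨3 / 200, 1757 / 1000, 24 / 3125, 3 / 100, 0, 0, false⟩,
    ⟨23 / 500, 1757 / 1000, 269 / 20000, 3 / 100, 0, 0, false⟩]⟩,
  ⟨7 / 50, [
    ⟨1 / 125, 2769 / 1250, 561 / 100000, 3 / 100, 0, 2, true⟩,
    ⟨11 / 1000, 2769 / 1250, 329 / 50000, 3 / 100, 0, 0, false⟩,
    ⟨3 / 100, 2769 / 1250, 543 / 50000, 3 / 100, 0, 0, false⟩,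
    ⟨6 / 125, 2769 / 1250, 687 / 50000, 3 / 100, 0, 0, false⟩]⟩,
  ⟨231 / 1000, [
    ⟨1 / 50, 7163 / 2500, 887 / 100000, 3 / 100, 0, 0, false⟩,
    ⟨1 / 20, 7163 / 2500, 701 / 50000, 3 / 100, 0, 0, false⟩]⟩]

/-- dimension 22: the row of numbers -/
def r22 : NRow := ⟨22, 15161 / 25000, 5767 / 3125, 17613 / 100000, 3523 / 20000, 247383 / 500000⟩

theorem r22_ok : nrowOK 17 17 17 17 17 r22 = true :=
  List.all_eq_true.1 tab17_ok _ (List.mem_iff_getElem.2 ⟨5, by decide, rfl⟩)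

theorem row22 : rowOK r22 p22 laws22 (relD r22.m) = true := by decide +kernel

theorem ok22 : nearOK p22 laws22 (els22.map Prod.fst) cols22 = true := by decide +kernel

theorem el22 : e7All p22.m els22 = true := by decide +kernel

/-- dimension 24: parameters -/
def p24 : ParQ :=
  ⟨24, 8701 / 50000, 17403 / 100000, 492753 / 1000000, 3 / 100, 0, 9 / 50, 1 / 100000, 1 / 100000, 89 / 400, 819 / 25000, (-1), (-1)⟩

/-- dimension 24: the law -/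
def laws24 : List LawQ :=
  [⟨33077 / 50000, 20279 / 10000, 416 / 4775, 711 / 5000, 97 / 500000, 1 / 100000, 1, 1⟩]

/-- dimension 24: the boxes of the mean normal law -/
def els24 : List (ElQ × ℚ × ℚ) := [
  (⟨1 / 20, 23 / 2000, 2539 / 1000, 357 / 400⟩, 1539 / 1000, 511 / 50000),
  (⟨2 / 25, 19 / 2000, 14029 / 5000, 4417 / 5000⟩, 9029 / 5000, 1639 / 100000),
  (⟨13 / 100, 17 / 2000, 32103 / 10000, 2129 / 2500⟩, 22103 / 10000, 2679 / 100000)]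

/-- dimension 24: the cells -/
def cols24 : List ColQ := [
  ⟨1 / 20, [
    ⟨23 / 2000, 1539 / 1000, 621 / 100000, 3 / 100, 0, 0, true⟩,
    ⟨11 / 500, 1539 / 1000, 859 / 100000, 3 / 100, 0, 0, false⟩,
    ⟨23 / 500, 1539 / 1000, 621 / 50000, 3 / 100, 0, 0, false⟩]⟩,
  ⟨2 / 25, [
    ⟨19 / 2000, 9029 / 5000, 113 / 20000, 3 / 100, 0, 1, true⟩,
    ⟨23 / 2000, 9029 / 5000, 621 / 100000, 3 / 100, 0, 0, false⟩,
    ⟨29 / 1000, 9029 / 5000, 493 / 50000, 3 / 100, 0, 0, false⟩,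
    ⟨6 / 125, 9029 / 5000, 1269 / 100000, 3 / 100, 0, 0, false⟩]⟩,
  ⟨13 / 100, [
    ⟨17 / 2000, 22103 / 10000, 267 / 50000, 3 / 100, 0, 2, true⟩,
    ⟨2 / 125, 22103 / 10000, 733 / 100000, 3 / 100, 0, 0, false⟩,
    ⟨1 / 20, 22103 / 10000, 259 / 20000, 3 / 100, 0, 0, false⟩]⟩,
  ⟨28 / 125, [
    ⟨3 / 500, 7291 / 2500, 449 / 100000, 3 / 100, 0, 0, false⟩,
    ⟨4 / 125, 7291 / 2500, 259 / 25000, 3 / 100, 0, 0, false⟩,
    ⟨11 / 200, 7291 / 2500, 679 / 50000, 3 / 100, 0, 0, false⟩]⟩]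

/-- dimension 24: the row of numbers -/
def r24 : NRow := ⟨24, 33077 / 50000, 20279 / 10000, 8701 / 50000, 17403 / 100000, 492753 / 1000000⟩

theorem r24_ok : nrowOK 17 17 17 17 17 r24 = true :=
  List.all_eq_true.1 tab17_ok _ (List.mem_iff_getElem.2 ⟨7, by decide, rfl⟩)

theorem row24 : rowOK r24 p24 laws24 (relD r24.m) = true := by decide +kernel

theorem ok24 : nearOK p24 laws24 (els24.map Prod.fst) cols24 = true := by decide +kernel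

theorem el24 : e7All p24.m els24 = true := by decide +kernel

/-- dimension 26: parameters -/
def p26 : ParQ :=
  ⟨26, 17177 / 100000, 8589 / 50000, 24553 / 50000, 3 / 100, 0, 9 / 50, 1 / 100000, 1 / 100000, 2169 / 10000, 879 / 25000, (-1), (-1)⟩

/-- dimension 26: the law -/
def laws26 : List LawQ :=
  [⟨7141 / 10000, 111103 / 50000, 448 / 5535, 1483 / 10000, 71 / 100000, 1 / 100000, 1, 1⟩]

/-- dimension 26: the boxes of the mean normal law -/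
def els26 : List (ElQ × ℚ × ℚ) := [
  (⟨1 / 20, 21 / 2000, 1608 / 625, 8997 / 10000⟩, 983 / 625, 491 / 50000),
  (⟨3 / 40, 1 / 100, 7021 / 2500, 1779 / 2000⟩, 4521 / 2500, 59 / 4000),
  (⟨23 / 200, 17 / 2000, 31537 / 10000, 4343 / 5000⟩, 21537 / 10000, 71 / 3125),
  (⟨7 / 40, 9 / 1000, 36343 / 10000, 8103 / 10000⟩, 26343 / 10000, 437 / 12500)]

/-- dimension 26: the cells -/
def cols26 : List ColQ := [
  ⟨1 / 20, [
    ⟨21 / 2000, 983 / 625, 551 / 100000, 3 / 100, 0, 0, true⟩,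
    ⟨11 / 1000, 983 / 625, 141 / 25000, 3 / 100, 0, 0, false⟩,
    ⟨2 / 125, 983 / 625, 681 / 100000, 3 / 100, 0, 0, false⟩,
    ⟨1 / 20, 983 / 625, 1203 / 100000, 3 / 100, 0, 0, false⟩]⟩,
  ⟨3 / 40, [
    ⟨1 / 100, 4521 / 2500, 269 / 50000, 3 / 100, 0, 1, true⟩,
    ⟨2 / 125, 4521 / 2500, 681 / 100000, 3 / 100, 0, 0, false⟩,
    ⟨1 / 20, 4521 / 2500, 1203 / 100000, 3 / 100, 0, 0, false⟩]⟩,
  ⟨23 / 200, [
    ⟨17 / 2000, 21537 / 10000, 31 / 6250, 3 / 100, 0, 2, true⟩,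
    ⟨13 / 1000, 21537 / 10000, 307 / 50000, 3 / 100, 0, 0, false⟩,
    ⟨23 / 500, 21537 / 10000, 577 / 50000, 3 / 100, 0, 0, false⟩]⟩,
  ⟨7 / 40, [
    ⟨9 / 1000, 26343 / 10000, 511 / 100000, 3 / 100, 0, 3, true⟩,
    ⟨1 / 25, 26343 / 10000, 269 / 25000, 3 / 100, 0, 0, false⟩,
    ⟨11 / 200, 26343 / 10000, 1261 / 100000, 3 / 100, 0, 0, false⟩]⟩,
  ⟨109 / 500, [
    ⟨11 / 200, 1187 / 400, 1261 / 100000, 3 / 100, 0, 0, false⟩]⟩]

/-- dimension 26: the row of numbers -/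
def r26 : NRow := ⟨26, 7141 / 10000, 111103 / 50000, 17177 / 100000, 8589 / 50000, 24553 / 50000⟩

theorem r26_ok : nrowOK 17 17 17 17 17 r26 = true :=
  List.all_eq_true.1 tab17_ok _ (List.mem_iff_getElem.2 ⟨9, by decide, rfl⟩)

theorem row26 : rowOK r26 p26 laws26 (relD r26.m) = true := by decide +kernel

theorem ok26 : nearOK p26 laws26 (els26.map Prod.fst) cols26 = true := by decide +kernel

theorem el26 : e7All p26.m els26 = true := by decide +kernel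

/-- dimension 28: parameters -/
def p28 : ParQ :=
  ⟨28, 3389 / 20000, 16947 / 100000, 97923 / 200000, 3 / 100, 0, 9 / 50, 1 / 100000, 1 / 100000, 531 / 2500, 939 / 25000, (-1), (-1)⟩

/-- dimension 28: the law -/
def laws28 : List LawQ :=
  [⟨38233 / 50000, 121327 / 50000, 160 / 2117, 777 / 5000, 47 / 25000, 1 / 100000, 1, 1⟩]

/-- dimension 28: the boxes of the mean normal law -/
def els28 : List (ElQ × ℚ × ℚ) := [
  (⟨1 / 25, 29 / 2000, 25001 / 10000, 8977 / 10000⟩, 15001 / 10000, 757 / 100000),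
  (⟨3 / 50, 21 / 2000, 13537 / 5000, 2249 / 2500⟩, 8537 / 5000, 71 / 6250),
  (⟨17 / 200, 9 / 1000, 1473 / 500, 891 / 1000⟩, 973 / 500, 1613 / 100000),
  (⟨27 / 200, 3 / 400, 16919 / 5000, 8601 / 10000⟩, 11919 / 5000, 1289 / 50000)]

/-- dimension 28: the cells -/
def cols28 : List ColQ := [
  ⟨1 / 25, [
    ⟨29 / 2000, 15001 / 10000, 121 / 20000, 3 / 100, 0, 0, true⟩,
    ⟨1 / 20, 15001 / 10000, 1123 / 100000, 3 / 100, 0, 0, false⟩]⟩,
  ⟨3 / 50, [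
    ⟨21 / 2000, 8537 / 5000, 103 / 20000, 3 / 100, 0, 1, true⟩,
    ⟨19 / 1000, 8537 / 5000, 173 / 25000, 3 / 100, 0, 0, false⟩,
    ⟨1 / 20, 8537 / 5000, 1123 / 100000, 3 / 100, 0, 0, false⟩]⟩,
  ⟨17 / 200, [
    ⟨9 / 1000, 973 / 500, 477 / 100000, 93 / 3125, 0, 2, true⟩,
    ⟨21 / 2000, 973 / 500, 103 / 20000, 3 / 100, 0, 0, false⟩,
    ⟨3 / 125, 973 / 500, 389 / 50000, 3 / 100, 0, 0, false⟩,
    ⟨11 / 200, 973 / 500, 589 / 50000, 3 / 100, 0, 0, false⟩]⟩,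
  ⟨27 / 200, [
    ⟨3 / 400, 11919 / 5000, 87 / 20000, 2951 / 100000, 0, 3, true⟩,
    ⟨17 / 2000, 11919 / 5000, 463 / 100000, 3 / 100, 0, 0, false⟩,
    ⟨2 / 125, 11919 / 5000, 127 / 20000, 3 / 100, 0, 0, false⟩,
    ⟨11 / 200, 11919 / 5000, 589 / 50000, 3 / 100, 0, 0, false⟩]⟩,
  ⟨107 / 500, [
    ⟨11 / 2000, 30279 / 10000, 373 / 100000, 3 / 100, 0, 0, false⟩,
    ⟨4 / 125, 30279 / 10000, 449 / 50000, 3 / 100, 0, 0, false⟩,
    ⟨3 / 50, 30279 / 10000, 123 / 10000, 3 / 100, 0, 0, false⟩]⟩]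

/-- dimension 28: the row of numbers -/
def r28 : NRow := ⟨28, 38233 / 50000, 121327 / 50000, 3389 / 20000, 16947 / 100000, 97923 / 200000⟩

theorem r28_ok : nrowOK 17 17 17 17 17 r28 = true :=
  List.all_eq_true.1 tab17_ok _ (List.mem_iff_getElem.2 ⟨11, by decide, rfl⟩)

theorem row28 : rowOK r28 p28 laws28 (relD r28.m) = true := by decide +kernel

theorem ok28 : nearOK p28 laws28 (els28.map Prod.fst) cols28 = true := by decide +kernel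

theorem el28 : e7All p28.m els28 = true := by decide +kernel

/-- dimension 30: parameters -/
def p30 : ParQ :=
  ⟨30, 16711 / 100000, 2089 / 12500, 30523 / 62500, 3 / 100, 0, 9 / 50, 11 / 500000, 11 / 500000, 131 / 625, 4103 / 100000, (-1), (-1)⟩

/-- dimension 30: the law -/
def laws30 : List LawQ :=
  [⟨81347 / 100000, 26407 / 10000, 512 / 7223, 1633 / 10000, 81 / 20000, 11 / 500000, 1, 1⟩]

/-- dimension 30: the boxes of the mean normal law -/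
def els30 : List (ElQ × ℚ × ℚ) := [
  (⟨3 / 100, 2 / 125, 12053 / 5000, 2253 / 2500⟩, 7053 / 5000, 137 / 25000),
  (⟨9 / 200, 21 / 2000, 25837 / 10000, 9093 / 10000⟩, 15837 / 10000, 823 / 100000),
  (⟨57 / 1000, 1 / 100, 2713 / 1000, 9059 / 10000⟩, 1713 / 1000, 1043 / 100000),
  (⟨69 / 1000, 19 / 2000, 28363 / 10000, 4509 / 5000⟩, 18363 / 10000, 1263 / 100000),
  (⟨21 / 250, 9 / 1000, 7459 / 2500, 4477 / 5000⟩, 4959 / 2500, 77 / 5000),
  (⟨57 / 500, 1 / 125, 16311 / 5000, 8791 / 10000⟩, 11311 / 5000, 2097 / 100000),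
  (⟨87 / 500, 3 / 400, 37823 / 10000, 516 / 625⟩, 27823 / 10000, 809 / 25000)]

/-- dimension 30: the cells -/
def cols30 : List ColQ := [
  ⟨3 / 100, [
    ⟨2 / 125, 7053 / 5000, 149 / 25000, 3 / 100, 0, 0, true⟩,
    ⟨11 / 200, 7053 / 5000, 69 / 6250, 3 / 100, 0, 0, false⟩]⟩,
  ⟨9 / 200, [
    ⟨21 / 2000, 15837 / 10000, 483 / 100000, 373 / 12500, 0, 1, true⟩,
    ⟨3 / 200, 15837 / 10000, 577 / 100000, 3 / 100, 0, 0, false⟩,
    ⟨11 / 200, 15837 / 10000, 69 / 6250, 3 / 100, 0, 0, false⟩]⟩,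
  ⟨57 / 1000, [
    ⟨1 / 100, 1713 / 1000, 471 / 100000, 599 / 20000, 0, 2, true⟩,
    ⟨7 / 500, 1713 / 1000, 557 / 100000, 3 / 100, 0, 0, false⟩,
    ⟨1 / 20, 1713 / 1000, 1053 / 100000, 3 / 100, 0, 0, false⟩]⟩,
  ⟨69 / 1000, [
    ⟨19 / 2000, 18363 / 10000, 459 / 100000, 747 / 25000, 0, 3, true⟩,
    ⟨27 / 2000, 18363 / 10000, 547 / 100000, 3 / 100, 0, 0, false⟩,
    ⟨1 / 20, 18363 / 10000, 1053 / 100000, 3 / 100, 0, 0, false⟩]⟩,
  ⟨21 / 250, [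
    ⟨9 / 1000, 4959 / 2500, 447 / 100000, 2999 / 100000, 0, 4, true⟩,
    ⟨7 / 500, 4959 / 2500, 557 / 100000, 3 / 100, 0, 0, false⟩,
    ⟨11 / 200, 4959 / 2500, 69 / 6250, 3 / 100, 0, 0, false⟩]⟩,
  ⟨57 / 500, [
    ⟨1 / 125, 11311 / 5000, 421 / 100000, 2969 / 100000, 0, 5, true⟩,
    ⟨23 / 2000, 11311 / 5000, 101 / 20000, 3 / 100, 0, 0, false⟩,
    ⟨19 / 500, 11311 / 5000, 459 / 50000, 3 / 100, 0, 0, false⟩,
    ⟨3 / 50, 11311 / 5000, 1153 / 100000, 3 / 100, 0, 0, false⟩]⟩,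
  ⟨87 / 500, [
    ⟨3 / 400, 27823 / 10000, 51 / 12500, 3 / 100, 0, 6, true⟩,
    ⟨1 / 40, 27823 / 10000, 149 / 20000, 3 / 100, 0, 0, false⟩,
    ⟨3 / 50, 27823 / 10000, 1153 / 100000, 3 / 100, 0, 0, false⟩]⟩,
  ⟨211 / 1000, [
    ⟨3 / 50, 7729 / 2500, 1153 / 100000, 3 / 100, 0, 0, false⟩]⟩]

/-- dimension 30: the row of numbers -/
def r30 : NRow := ⟨30, 81347 / 100000, 26407 / 10000, 16711 / 100000, 2089 / 12500, 30523 / 62500⟩

theorem r30_ok : nrowOK 17 17 17 17 17 r30 = true :=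
  List.all_eq_true.1 tab17_ok _ (List.mem_iff_getElem.2 ⟨13, by decide, rfl⟩)

theorem row30 : rowOK r30 p30 laws30 (relD r30.m) = true := by decide +kernel

theorem ok30 : nearOK p30 laws30 (els30.map Prod.fst) cols30 = true := by decide +kernel

theorem el30 : e7All p30.m els30 = true := by decide +kernel

/-- dimension 32: parameters -/
def p32 : ParQ :=
  ⟨32, 16477 / 100000, 16479 / 100000, 6091 / 12500, 3 / 100, 0, 9 / 50, 11 / 500000, 11 / 500000, 2067 / 10000, 87 / 2000, (-1), (-1)⟩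

/-- dimension 32: the law -/
def laws32 : List LawQ :=
  [⟨86073 / 100000, 71579 / 25000, 544 / 8151, 859 / 5000, 189 / 25000, 11 / 500000, 1, 1⟩]

/-- dimension 32: the boxes of the mean normal law -/
def els32 : List (ElQ × ℚ × ℚ) := [
  (⟨3 / 100, 21 / 2000, 6081 / 2500, 4587 / 5000⟩, 3581 / 2500, 531 / 100000),
  (⟨1 / 25, 1 / 100, 12773 / 5000, 1831 / 2000⟩, 7773 / 5000, 177 / 25000),
  (⟨9 / 200, 1 / 100, 6533 / 2500, 4569 / 5000⟩, 4033 / 2500, 797 / 100000),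
  (⟨6 / 125, 19 / 2000, 6619 / 2500, 9139 / 10000⟩, 4119 / 2500, 17 / 2000),
  (⟨27 / 500, 19 / 2000, 27149 / 10000, 2279 / 2500⟩, 17149 / 10000, 239 / 25000),
  (⟨29 / 500, 19 / 2000, 27589 / 10000, 91 / 100⟩, 17589 / 10000, 1027 / 100000),
  (⟨31 / 500, 9 / 1000, 28021 / 10000, 1137 / 1250⟩, 18021 / 10000, 1099 / 100000),
  (⟨7 / 100, 9 / 1000, 14433 / 5000, 9059 / 10000⟩, 9433 / 5000, 1241 / 100000),
  (⟨41 / 500, 17 / 2000, 30093 / 10000, 2253 / 2500⟩, 20093 / 10000, 291 / 20000),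
  (⟨51 / 500, 1 / 125, 641 / 200, 8907 / 10000⟩, 441 / 200, 907 / 50000),
  (⟨81 / 500, 13 / 2000, 37519 / 10000, 1057 / 1250⟩, 27519 / 10000, 2909 / 100000)]

/-- dimension 32: the cells -/
def cols32 : List ColQ := [
  ⟨3 / 100, [
    ⟨21 / 2000, 3581 / 2500, 227 / 50000, 87 / 3125, 0, 0, true⟩,
    ⟨27 / 2000, 3581 / 2500, 103 / 20000, 3 / 100, 0, 0, false⟩,
    ⟨23 / 500, 3581 / 2500, 951 / 100000, 3 / 100, 0, 0, false⟩]⟩,
  ⟨1 / 25, [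
    ⟨1 / 100, 7773 / 5000, 111 / 25000, 2791 / 100000, 0, 1, true⟩,
    ⟨21 / 2000, 7773 / 5000, 227 / 50000, 3 / 100, 0, 0, false⟩,
    ⟨2 / 125, 7773 / 5000, 561 / 100000, 3 / 100, 0, 0, false⟩,
    ⟨11 / 200, 7773 / 5000, 13 / 1250, 3 / 100, 0, 0, false⟩]⟩,
  ⟨9 / 200, [
    ⟨1 / 100, 4033 / 2500, 111 / 25000, 143 / 5000, 0, 2, true⟩,
    ⟨7 / 500, 4033 / 2500, 21 / 4000, 3 / 100, 0, 0, false⟩,
    ⟨1 / 20, 4033 / 2500, 991 / 100000, 3 / 100, 0, 0, false⟩]⟩,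
  ⟨6 / 125, [
    ⟨19 / 2000, 4119 / 2500, 27 / 6250, 2753 / 100000, 0, 3, true⟩,
    ⟨1 / 100, 4119 / 2500, 111 / 25000, 3 / 100, 0, 0, false⟩,
    ⟨2 / 125, 4119 / 2500, 561 / 100000, 3 / 100, 0, 0, false⟩,
    ⟨3 / 50, 4119 / 2500, 543 / 50000, 3 / 100, 0, 0, false⟩]⟩,
  ⟨27 / 500, [
    ⟨19 / 2000, 17149 / 10000, 27 / 6250, 283 / 10000, 0, 4, true⟩,
    ⟨1 / 100, 17149 / 10000, 111 / 25000, 3 / 100, 0, 0, false⟩,
    ⟨2 / 125, 17149 / 10000, 561 / 100000, 3 / 100, 0, 0, false⟩,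
    ⟨3 / 50, 17149 / 10000, 543 / 50000, 3 / 100, 0, 0, false⟩]⟩,
  ⟨29 / 500, [
    ⟨19 / 2000, 17589 / 10000, 27 / 6250, 2881 / 100000, 0, 5, true⟩,
    ⟨13 / 1000, 17589 / 10000, 253 / 50000, 3 / 100, 0, 0, false⟩,
    ⟨23 / 500, 17589 / 10000, 951 / 100000, 3 / 100, 0, 0, false⟩,
    ⟨3 / 50, 17589 / 10000, 543 / 50000, 3 / 100, 0, 0, false⟩]⟩,
  ⟨31 / 500, [
    ⟨9 / 1000, 18021 / 10000, 421 / 100000, 2773 / 100000, 0, 6, true⟩,
    ⟨19 / 2000, 18021 / 10000, 27 / 6250, 3 / 100, 0, 0, false⟩,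
    ⟨3 / 200, 18021 / 10000, 543 / 100000, 3 / 100, 0, 0, false⟩,
    ⟨3 / 50, 18021 / 10000, 543 / 50000, 3 / 100, 0, 0, false⟩]⟩,
  ⟨7 / 100, [
    ⟨9 / 1000, 9433 / 5000, 421 / 100000, 717 / 25000, 0, 7, true⟩,
    ⟨21 / 2000, 9433 / 5000, 227 / 50000, 3 / 100, 0, 0, false⟩,
    ⟨13 / 500, 9433 / 5000, 143 / 20000, 3 / 100, 0, 0, false⟩,
    ⟨3 / 50, 9433 / 5000, 543 / 50000, 3 / 100, 0, 0, false⟩]⟩,
  ⟨41 / 500, [
    ⟨17 / 2000, 20093 / 10000, 409 / 100000, 2839 / 100000, 0, 8, true⟩,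
    ⟨9 / 1000, 20093 / 10000, 421 / 100000, 3 / 100, 0, 0, false⟩,
    ⟨7 / 500, 20093 / 10000, 21 / 4000, 3 / 100, 0, 0, false⟩,
    ⟨11 / 200, 20093 / 10000, 13 / 1250, 3 / 100, 0, 0, false⟩]⟩,
  ⟨51 / 500, [
    ⟨1 / 125, 441 / 200, 397 / 100000, 2879 / 100000, 0, 9, true⟩,
    ⟨21 / 2000, 441 / 200, 227 / 50000, 3 / 100, 0, 0, false⟩,
    ⟨4 / 125, 441 / 200, 793 / 100000, 3 / 100, 0, 0, false⟩,
    ⟨3 / 50, 441 / 200, 543 / 50000, 3 / 100, 0, 0, false⟩]⟩,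
  ⟨81 / 500, [
    ⟨13 / 2000, 27519 / 10000, 179 / 50000, 577 / 20000, 0, 10, true⟩,
    ⟨7 / 1000, 27519 / 10000, 371 / 100000, 3 / 100, 0, 0, false⟩,
    ⟨1 / 100, 27519 / 10000, 111 / 25000, 3 / 100, 0, 0, false⟩,
    ⟨29 / 1000, 27519 / 10000, 151 / 20000, 3 / 100, 0, 0, false⟩,
    ⟨13 / 200, 27519 / 10000, 113 / 10000, 3 / 100, 0, 0, false⟩]⟩,
  ⟨26 / 125, [
    ⟨9 / 250, 31511 / 10000, 841 / 100000, 3 / 100, 0, 0, false⟩,
    ⟨7 / 100, 31511 / 10000, 1173 / 100000, 3 / 100, 0, 0, false⟩]⟩]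

/-- dimension 32: the row of numbers -/
def r32 : NRow := ⟨32, 86073 / 100000, 71579 / 25000, 16477 / 100000, 16479 / 100000, 6091 / 12500⟩

theorem r32_ok : nrowOK 17 17 17 17 17 r32 = true :=
  List.all_eq_true.1 tab17_ok _ (List.mem_iff_getElem.2 ⟨15, by decide, rfl⟩)

theorem row32 : rowOK r32 p32 laws32 (relD r32.m) = true := by decide +kernel

theorem ok32 : nearOK p32 laws32 (els32.map Prod.fst) cols32 = true := by decide +kernel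

theorem el32 : e7All p32.m els32 = true := by decide +kernel

/-- dimension 34: parameters -/
def p34 : ParQ :=
  ⟨34, 8123 / 50000, 2031 / 12500, 121581 / 250000, 1 / 50, 0, 9 / 50, 11 / 500000, 11 / 500000, 1783 / 10000, 1083 / 50000, (-1), (-1)⟩

/-- dimension 34: the law -/
def laws34 : List LawQ :=
  [⟨90661 / 100000, 309303 / 100000, 64 / 1015, 113 / 625, 129 / 10000, 11 / 500000, 1, 1⟩]

/-- dimension 34: the boxes of the mean normal law -/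
def els34 : List (ElQ × ℚ × ℚ) := [
  (⟨3 / 50, 3 / 400, 28161 / 10000, 2293 / 2500⟩, 18161 / 10000, 1031 / 100000),
  (⟨4 / 25, 1 / 250, 38031 / 10000, 537 / 625⟩, 28031 / 10000, 1393 / 50000)]

/-- dimension 34: the cells -/
def cols34 : List ColQ := [
  ⟨3 / 50, [
    ⟨3 / 400, 18161 / 10000, 363 / 100000, 1 / 50, 0, 0, true⟩,
    ⟨17 / 500, 18161 / 10000, 193 / 25000, 1 / 50, 0, 0, false⟩]⟩,
  ⟨4 / 25, [
    ⟨1 / 250, 28031 / 10000, 53 / 20000, 1771 / 100000, 0, 1, true⟩,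
    ⟨9 / 2000, 28031 / 10000, 281 / 100000, 1 / 50, 0, 0, false⟩,
    ⟨19 / 2000, 28031 / 10000, 51 / 12500, 1 / 50, 0, 0, false⟩,
    ⟨19 / 500, 28031 / 10000, 51 / 6250, 1 / 50, 0, 0, false⟩]⟩,
  ⟨9 / 50, [
    ⟨19 / 500, 29837 / 10000, 51 / 6250, 1 / 50, 0, 0, false⟩]⟩]

/-- dimension 34: the row of numbers -/
def r34 : NRow := ⟨34, 90661 / 100000, 309303 / 100000, 8123 / 50000, 2031 / 12500, 121581 / 250000⟩

theorem r34_ok : nrowOK 17 17 17 17 17 r34 = true :=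
  List.all_eq_true.1 tab17_ok _ (List.mem_iff_getElem.2 ⟨17, by decide, rfl⟩)

theorem row34 : rowOK r34 p34 laws34 (relD r34.m) = true := by decide +kernel

theorem ok34 : nearOK p34 laws34 (els34.map Prod.fst) cols34 = true := by decide +kernel

theorem el34 : e7All p34.m els34 = true := by decide +kernel

/-- dimension 36: parameters -/
def p36 : ParQ :=
  ⟨36, 801 / 5000, 16021 / 100000, 121369 / 250000, 1 / 50, 0, 9 / 50, 11 / 500000, 11 / 500000, 437 / 2500, 2283 / 100000, (-1), (-1)⟩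

/-- dimension 36: the law -/
def laws36 : List LawQ :=
  [⟨47563 / 50000, 166487 / 50000, 608 / 10175, 1901 / 10000, 101 / 5000, 11 / 500000, 1, 1⟩]

/-- dimension 36: the boxes of the mean normal law -/
def els36 : List (ElQ × ℚ × ℚ) := [
  (⟨1 / 20, 11 / 2000, 27321 / 10000, 1857 / 2000⟩, 17321 / 10000, 167 / 20000),
  (⟨11 / 100, 9 / 2000, 8467 / 2500, 4507 / 5000⟩, 5967 / 2500, 923 / 50000)]

/-- dimension 36: the cells -/
def cols36 : List ColQ := [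
  ⟨1 / 20, [
    ⟨11 / 2000, 17321 / 10000, 59 / 20000, 1619 / 100000, 0, 0, true⟩,
    ⟨2 / 125, 17321 / 10000, 251 / 50000, 1 / 50, 0, 0, false⟩,
    ⟨9 / 250, 17321 / 10000, 753 / 100000, 1 / 50, 0, 0, false⟩]⟩,
  ⟨11 / 100, [
    ⟨9 / 2000, 5967 / 2500, 267 / 100000, 1691 / 100000, 0, 1, true⟩,
    ⟨9 / 1000, 5967 / 2500, 377 / 100000, 1 / 50, 0, 0, false⟩,
    ⟨19 / 500, 5967 / 2500, 387 / 50000, 1 / 50, 0, 0, false⟩]⟩,
  ⟨22 / 125, [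
    ⟨23 / 1000, 15097 / 5000, 301 / 50000, 1 / 50, 0, 0, false⟩,
    ⟨1 / 25, 15097 / 5000, 397 / 50000, 1 / 50, 0, 0, false⟩]⟩]

/-- dimension 36: the row of numbers -/
def r36 : NRow := ⟨36, 47563 / 50000, 166487 / 50000, 801 / 5000, 16021 / 100000, 121369 / 250000⟩

theorem r36_ok : nrowOK 17 17 17 17 17 r36 = true :=
  List.all_eq_true.1 tab17_ok _ (List.mem_iff_getElem.2 ⟨19, by decide, rfl⟩)

theorem row36 : rowOK r36 p36 laws36 (relD r36.m) = true := by decide +kernel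

theorem ok36 : nearOK p36 laws36 (els36.map Prod.fst) cols36 = true := by decide +kernel

theorem el36 : e7All p36.m els36 = true := by decide +kernel

end Vale.Agent.P224.R2.H925.TbE
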