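import Vale.Agent.P224.R2.H925.Blk
import Vale.Agent.P224.R2.H627.Tab17
import Vale.Agent.P224.R2.H424.Tls6

/-!
Tables of the near range in odd dimensions 17..35, mean normal at most 1/50.
-/

namespace Vale.Agent.P224.R2.H925.TbO

open Vale.Agent.P224.R2.H728 Vale.Agent.P224.R2.H627 Vale.Agent.P224.R2.H925
open Vale.Agent.P224.R2.H424.Tls (relD)

set_option maxRecDepth 100000

/-- dimension 17: parameters -/
def p17 : ParQ :=
  ⟨17, 3601 / 20000, 18007 / 100000, 100393 / 200000, 1 / 50, 7 / 98260, 9 / 50, 1 / 100000, 1 / 100000, 611 / 2500, 1489 / 100000, 6 / 125, 99 / 50000⟩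

/-- dimension 17: the law -/
def laws17 : List LawQ :=
  [⟨45197 / 100000, 29079 / 20000, 76 / 639, 673 / 5000, 123 / 10000000000, 1 / 100000, 1, 1⟩]

/-- dimension 17: the boxes of the mean normal law -/
def els17 : List (ElQ × ℚ × ℚ) := [
  (⟨1 / 25, 1 / 400, 11693 / 5000, 8957 / 10000⟩, 6693 / 5000, 97 / 10000),
  (⟨1 / 25, 1 / 250, 11693 / 5000, 8921 / 10000⟩, 6693 / 5000, 97 / 10000),
  (⟨1 / 25, 7 / 1000, 11693 / 5000, 553 / 625⟩, 6693 / 5000, 97 / 10000),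
  (⟨1 / 25, 17 / 1000, 11693 / 5000, 43 / 50⟩, 6693 / 5000, 97 / 10000),
  (⟨6 / 125, 27 / 1000, 23993 / 10000, 4151 / 5000⟩, 13993 / 10000, 233 / 20000),
  (⟨27 / 250, 9 / 1000, 3521 / 1250, 8429 / 10000⟩, 2271 / 1250, 1317 / 50000)]

/-- dimension 17: the cells -/
def cols17 : List ColQ := [
  ⟨1 / 25, [
    ⟨1 / 400, 6693 / 5000, 99 / 25000, 653 / 100000, 0, 0, true⟩,
    ⟨1 / 250, 6693 / 5000, 501 / 100000, 1049 / 100000, 0, 1, true⟩,
    ⟨7 / 1000, 6693 / 5000, 331 / 50000, 1851 / 100000, 0, 2, true⟩,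
    ⟨17 / 1000, 6693 / 5000, 129 / 12500, 1 / 50, 0, 3, true⟩]⟩,
  ⟨6 / 125, [
    ⟨27 / 1000, 13993 / 10000, 1301 / 100000, 1 / 50, 0, 4, true⟩]⟩,
  ⟨27 / 250, [
    ⟨9 / 1000, 2271 / 1250, 751 / 100000, 1 / 50, 0, 5, true⟩,
    ⟨7 / 250, 2271 / 1250, 331 / 25000, 1 / 50, 0, 0, false⟩]⟩,
  ⟨123 / 500, [
    ⟨11 / 500, 26831 / 10000, 587 / 50000, 1 / 50, 0, 0, false⟩]⟩]

/-- dimension 17: the row of numbers -/
def r17 : NRow := ⟨17, 45197 / 100000, 29079 / 20000, 3601 / 20000, 18007 / 100000, 100393 / 200000⟩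

theorem r17_ok : nrowOK 17 17 17 17 17 r17 = true :=
  List.all_eq_true.1 tab17_ok _ (List.mem_iff_getElem.2 ⟨0, by decide, rfl⟩)

theorem row17 : rowOK r17 p17 laws17 (relD r17.m) = true := by decide +kernel

theorem ok17 : nearOK p17 laws17 (els17.map Prod.fst) cols17 = true := by decide +kernel

theorem el17 : e7All p17.m els17 = true := by decide +kernel

/-- dimension 19: parameters -/
def p19 : ParQ :=
  ⟨19, 8941 / 50000, 4471 / 25000, 124653 / 250000, 1 / 50, 7 / 137180, 9 / 50, 1 / 100000, 1 / 100000, 289 / 1250, 19 / 1250, 21 / 500, 141 / 100000⟩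

/-- dimension 19: the law -/
def laws19 : List LawQ :=
  [⟨51727 / 100000, 4993 / 3125, 7 / 65, 267 / 2000, 211 / 500000000, 1 / 100000, 1, 1⟩]

/-- dimension 19: the boxes of the mean normal law -/
def els19 : List (ElQ × ℚ × ℚ) := [
  (⟨21 / 500, 1 / 400, 23859 / 10000, 9027 / 10000⟩, 13859 / 10000, 241 / 25000),
  (⟨21 / 500, 13 / 2000, 23859 / 10000, 893 / 1000⟩, 13859 / 10000, 241 / 25000),
  (⟨21 / 500, 1 / 40, 23859 / 10000, 1693 / 2000⟩, 13859 / 10000, 241 / 25000),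
  (⟨61 / 500, 7 / 1000, 14897 / 5000, 4233 / 5000⟩, 9897 / 5000, 2821 / 100000)]

/-- dimension 19: the cells -/
def cols19 : List ColQ := [
  ⟨21 / 500, [
    ⟨1 / 400, 13859 / 10000, 359 / 100000, 661 / 100000, 0, 0, true⟩,
    ⟨13 / 2000, 13859 / 10000, 289 / 50000, 1737 / 100000, 0, 1, true⟩,
    ⟨1 / 40, 13859 / 10000, 1133 / 100000, 1 / 50, 0, 2, true⟩]⟩,
  ⟨61 / 500, [
    ⟨7 / 1000, 9897 / 5000, 3 / 500, 1 / 50, 0, 3, true⟩,
    ⟨1 / 50, 9897 / 5000, 1013 / 100000, 1 / 50, 0, 0, false⟩]⟩,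
  ⟨233 / 1000, [
    ⟨3 / 100, 13583 / 5000, 1241 / 100000, 1 / 50, 0, 0, false⟩]⟩]

/-- dimension 19: the row of numbers -/
def r19 : NRow := ⟨19, 51727 / 100000, 4993 / 3125, 8941 / 50000, 4471 / 25000, 124653 / 250000⟩

theorem r19_ok : nrowOK 17 17 17 17 17 r19 = true :=
  List.all_eq_true.1 tab17_ok _ (List.mem_iff_getElem.2 ⟨2, by decide, rfl⟩)

theorem row19 : rowOK r19 p19 laws19 (relD r19.m) = true := by decide +kernel

theorem ok19 : nearOK p19 laws19 (els19.map Prod.fst) cols19 = true := by decide +kernel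

theorem el19 : e7All p19.m els19 = true := by decide +kernel

/-- dimension 21: parameters -/
def p21 : ParQ :=
  ⟨21, 17711 / 100000, 17713 / 100000, 495921 / 1000000, 1 / 50, 1 / 26460, 9 / 50, 1 / 100000, 1 / 100000, 2201 / 10000, 1573 / 100000, 37 / 1000, 21 / 20000⟩

/-- dimension 21: the law -/
def laws21 : List LawQ :=
  [⟨57767 / 100000, 175913 / 100000, 92 / 935, 271 / 2000, 79 / 10000000, 1 / 100000, 1, 1⟩]

/-- dimension 21: the boxes of the mean normal law -/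
def els21 : List (ElQ × ℚ × ℚ) := [
  (⟨37 / 1000, 3 / 1000, 949 / 400, 1819 / 2000⟩, 549 / 400, 101 / 12500),
  (⟨37 / 1000, 21 / 1000, 949 / 400, 8657 / 10000⟩, 549 / 400, 101 / 12500),
  (⟨117 / 1000, 17 / 2000, 30119 / 10000, 8531 / 10000⟩, 20119 / 10000, 643 / 25000)]

/-- dimension 21: the cells -/
def cols21 : List ColQ := [
  ⟨37 / 1000, [
    ⟨3 / 1000, 549 / 400, 359 / 100000, 783 / 100000, 0, 0, true⟩,
    ⟨21 / 1000, 549 / 400, 237 / 25000, 1 / 50, 0, 1, true⟩]⟩,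
  ⟨117 / 1000, [
    ⟨17 / 2000, 20119 / 10000, 151 / 25000, 1 / 50, 0, 2, true⟩,
    ⟨29 / 1000, 20119 / 10000, 557 / 50000, 1 / 50, 0, 0, false⟩]⟩,
  ⟨111 / 500, [
    ⟨4 / 125, 27501 / 10000, 1171 / 100000, 1 / 50, 0, 0, false⟩]⟩]

/-- dimension 21: the row of numbers -/
def r21 : NRow := ⟨21, 57767 / 100000, 175913 / 100000, 17711 / 100000, 17713 / 100000, 495921 / 1000000⟩

theorem r21_ok : nrowOK 17 17 17 17 17 r21 = true :=
  List.all_eq_true.1 tab17_ok _ (List.mem_iff_getElem.2 ⟨4, by decide, rfl⟩)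

theorem row21 : rowOK r21 p21 laws21 (relD r21.m) = true := by decide +kernel

theorem ok21 : nearOK p21 laws21 (els21.map Prod.fst) cols21 = true := by decide +kernel

theorem el21 : e7All p21.m els21 = true := by decide +kernel

/-- dimension 23: parameters -/
def p23 : ParQ :=
  ⟨23, 1751 / 10000, 17511 / 100000, 246857 / 500000, 1 / 50, 7 / 243340, 9 / 50, 1 / 100000, 1 / 100000, 1053 / 5000, 1641 / 100000, 17 / 500, 81 / 100000⟩

/-- dimension 23: the law -/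
def laws23 : List LawQ :=
  [⟨63441 / 100000, 193511 / 100000, 25 / 276, 349 / 2500, 831 / 10000000, 1 / 100000, 1, 1⟩]

/-- dimension 23: the boxes of the mean normal law -/
def els23 : List (ElQ × ℚ × ℚ) := [
  (⟨17 / 500, 7 / 2000, 1482 / 625, 2287 / 2500⟩, 857 / 625, 709 / 100000),
  (⟨17 / 500, 7 / 250, 1482 / 625, 171 / 200⟩, 857 / 625, 71 / 10000),
  (⟨57 / 500, 1 / 100, 6107 / 2000, 8571 / 10000⟩, 4107 / 2000, 1197 / 50000)]

/-- dimension 23: the cells -/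
def cols23 : List ColQ := [
  ⟨17 / 500, [
    ⟨7 / 2000, 857 / 625, 357 / 100000, 227 / 25000, 0, 0, true⟩,
    ⟨7 / 250, 857 / 625, 63 / 6250, 1 / 50, 0, 1, true⟩]⟩,
  ⟨57 / 500, [
    ⟨1 / 100, 4107 / 2000, 301 / 50000, 1 / 50, 0, 2, true⟩,
    ⟨3 / 100, 4107 / 2000, 1043 / 100000, 1 / 50, 0, 0, false⟩]⟩,
  ⟨53 / 250, [
    ⟨4 / 125, 6949 / 2500, 1077 / 100000, 1 / 50, 0, 0, false⟩]⟩]

/-- dimension 23: the row of numbers -/
def r23 : NRow := ⟨23, 63441 / 100000, 193511 / 100000, 1751 / 10000, 17511 / 100000, 246857 / 500000⟩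

theorem r23_ok : nrowOK 17 17 17 17 17 r23 = true :=
  List.all_eq_true.1 tab17_ok _ (List.mem_iff_getElem.2 ⟨6, by decide, rfl⟩)

theorem row23 : rowOK r23 p23 laws23 (relD r23.m) = true := by decide +kernel

theorem ok23 : nearOK p23 laws23 (els23.map Prod.fst) cols23 = true := by decide +kernel

theorem el23 : e7All p23.m els23 = true := by decide +kernel

/-- dimension 25: parameters -/
def p25 : ParQ :=
  ⟨25, 17291 / 100000, 4323 / 25000, 15371 / 31250, 1 / 50, 7 / 312500, 9 / 50, 1 / 100000, 1 / 100000, 81 / 400, 1719 / 100000, 31 / 1000, 13 / 20000⟩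

/-- dimension 25: the law -/
def laws25 : List LawQ :=
  [⟨68809 / 100000, 106181 / 50000, 12 / 143, 1451 / 10000, 391 / 1000000, 1 / 100000, 1, 1⟩]

/-- dimension 25: the boxes of the mean normal law -/
def els25 : List (ElQ × ℚ × ℚ) := [
  (⟨31 / 1000, 1 / 250, 23653 / 10000, 9193 / 10000⟩, 13653 / 10000, 31 / 5000),
  (⟨31 / 1000, 29 / 1000, 23653 / 10000, 8589 / 10000⟩, 13653 / 10000, 621 / 100000),
  (⟨111 / 1000, 21 / 2000, 7727 / 2500, 1079 / 1250⟩, 5227 / 2500, 559 / 25000)]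

/-- dimension 25: the cells -/
def cols25 : List ColQ := [
  ⟨31 / 1000, [
    ⟨1 / 250, 13653 / 10000, 353 / 100000, 103 / 10000, 0, 0, true⟩,
    ⟨29 / 1000, 13653 / 10000, 19 / 2000, 1 / 50, 0, 1, true⟩]⟩,
  ⟨111 / 1000, [
    ⟨21 / 2000, 5227 / 2500, 143 / 25000, 1 / 50, 0, 2, true⟩,
    ⟨3 / 100, 5227 / 2500, 483 / 50000, 1 / 50, 0, 0, false⟩]⟩,
  ⟨51 / 250, [
    ⟨4 / 125, 14071 / 5000, 499 / 50000, 1 / 50, 0, 0, false⟩]⟩]

/-- dimension 25: the row of numbers -/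
def r25 : NRow := ⟨25, 68809 / 100000, 106181 / 50000, 17291 / 100000, 4323 / 25000, 15371 / 31250⟩

theorem r25_ok : nrowOK 17 17 17 17 17 r25 = true :=
  List.all_eq_true.1 tab17_ok _ (List.mem_iff_getElem.2 ⟨8, by decide, rfl⟩)

theorem row25 : rowOK r25 p25 laws25 (relD r25.m) = true := by decide +kernel

theorem ok25 : nearOK p25 laws25 (els25.map Prod.fst) cols25 = true := by decide +kernel

theorem el25 : e7All p25.m els25 = true := by decide +kernel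

/-- dimension 27: parameters -/
def p27 : ParQ :=
  ⟨27, 8531 / 50000, 17063 / 100000, 49031 / 100000, 1 / 50, 7 / 393660, 9 / 50, 1 / 100000, 1 / 100000, 489 / 2500, 451 / 25000, 7 / 250, 27 / 50000⟩

/-- dimension 27: the law -/
def laws27 : List LawQ :=
  [⟨36981 / 50000, 232309 / 100000, 29 / 371, 759 / 5000, 3 / 2500, 1 / 100000, 1, 1⟩]

/-- dimension 27: the boxes of the mean normal law -/
def els27 : List (ElQ × ℚ × ℚ) := [
  (⟨7 / 250, 1 / 250, 5887 / 2500, 9243 / 10000⟩, 3387 / 2500, 539 / 100000),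
  (⟨7 / 250, 3 / 100, 5887 / 2500, 431 / 500⟩, 3387 / 2500, 539 / 100000),
  (⟨27 / 250, 1 / 100, 781 / 250, 1743 / 2000⟩, 531 / 250, 523 / 25000)]

/-- dimension 27: the cells -/
def cols27 : List ColQ := [
  ⟨7 / 250, [
    ⟨1 / 250, 3387 / 2500, 329 / 100000, 51 / 5000, 0, 0, true⟩,
    ⟨3 / 100, 3387 / 2500, 9 / 1000, 1 / 50, 0, 1, true⟩]⟩,
  ⟨27 / 250, [
    ⟨1 / 100, 531 / 250, 13 / 2500, 1 / 50, 0, 2, true⟩,
    ⟨4 / 125, 531 / 250, 929 / 100000, 1 / 50, 0, 0, false⟩]⟩,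
  ⟨197 / 1000, [
    ⟨27 / 1000, 28487 / 10000, 427 / 50000, 1 / 50, 0, 0, false⟩]⟩]

/-- dimension 27: the row of numbers -/
def r27 : NRow := ⟨27, 36981 / 50000, 232309 / 100000, 8531 / 50000, 17063 / 100000, 49031 / 100000⟩

theorem r27_ok : nrowOK 17 17 17 17 17 r27 = true :=
  List.all_eq_true.1 tab17_ok _ (List.mem_iff_getElem.2 ⟨10, by decide, rfl⟩)

theorem row27 : rowOK r27 p27 laws27 (relD r27.m) = true := by decide +kernel

theorem ok27 : nearOK p27 laws27 (els27.map Prod.fst) cols27 = true := by decide +kernel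

theorem el27 : e7All p27.m els27 = true := by decide +kernel

/-- dimension 29: parameters -/
def p29 : ParQ :=
  ⟨29, 4207 / 25000, 1683 / 10000, 488969 / 1000000, 1 / 50, 7 / 487780, 9 / 50, 11 / 500000, 11 / 500000, 1907 / 10000, 999 / 50000, 13 / 500, 47 / 100000⟩

/-- dimension 29: the law -/
def laws29 : List LawQ :=
  [⟨78927 / 100000, 50649 / 20000, 124 / 1695, 1593 / 10000, 141 / 50000, 11 / 500000, 1, 1⟩]

/-- dimension 29: the boxes of the mean normal law -/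
def els29 : List (ElQ × ℚ × ℚ) := [
  (⟨13 / 500, 9 / 2000, 23519 / 10000, 4637 / 5000⟩, 13519 / 10000, 483 / 100000),
  (⟨13 / 500, 4 / 125, 23519 / 10000, 8617 / 10000⟩, 13519 / 10000, 483 / 100000),
  (⟨53 / 500, 17 / 2000, 3953 / 1250, 8813 / 10000⟩, 2703 / 1250, 1981 / 100000)]

/-- dimension 29: the cells -/
def cols29 : List ColQ := [
  ⟨13 / 500, [
    ⟨9 / 2000, 13519 / 10000, 163 / 50000, 571 / 50000, 0, 0, true⟩,
    ⟨4 / 125, 13519 / 10000, 87 / 10000, 1 / 50, 0, 1, true⟩]⟩,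
  ⟨53 / 500, [
    ⟨17 / 2000, 2703 / 1250, 14 / 3125, 1 / 50, 0, 2, true⟩,
    ⟨17 / 500, 2703 / 1250, 28 / 3125, 1 / 50, 0, 0, false⟩]⟩,
  ⟨24 / 125, [
    ⟨11 / 500, 1157 / 400, 721 / 100000, 1 / 50, 0, 0, false⟩,
    ⟨9 / 250, 1157 / 400, 461 / 50000, 1 / 50, 0, 0, false⟩]⟩]

/-- dimension 29: the row of numbers -/
def r29 : NRow := ⟨29, 78927 / 100000, 50649 / 20000, 4207 / 25000, 1683 / 10000, 488969 / 1000000⟩

theorem r29_ok : nrowOK 17 17 17 17 17 r29 = true :=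
  List.all_eq_true.1 tab17_ok _ (List.mem_iff_getElem.2 ⟨12, by decide, rfl⟩)

theorem row29 : rowOK r29 p29 laws29 (relD r29.m) = true := by decide +kernel

theorem ok29 : nearOK p29 laws29 (els29.map Prod.fst) cols29 = true := by decide +kernel

theorem el29 : e7All p29.m els29 = true := by decide +kernel

/-- dimension 31: parameters -/
def p31 : ParQ :=
  ⟨31, 8297 / 50000, 3319 / 20000, 243903 / 500000, 1 / 50, 7 / 595820, 9 / 50, 11 / 500000, 11 / 500000, 116 / 625, 1049 / 50000, 1 / 40, 11 / 25000⟩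

/-- dimension 31: the law -/
def laws31 : List LawQ :=
  [⟨5233 / 6250, 34387 / 12500, 11 / 160, 67 / 400, 561 / 100000, 11 / 500000, 1, 1⟩]

/-- dimension 31: the boxes of the mean normal law -/
def els31 : List (ElQ × ℚ × ℚ) := [
  (⟨1 / 40, 1 / 200, 5897 / 2500, 4649 / 5000⟩, 3397 / 2500, 449 / 100000),
  (⟨1 / 40, 4 / 125, 5897 / 2500, 541 / 625⟩, 3397 / 2500, 9 / 2000),
  (⟨21 / 200, 11 / 2000, 4009 / 1250, 4471 / 5000⟩, 2759 / 1250, 949 / 50000)]

/-- dimension 31: the cells -/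
def cols31 : List ColQ := [
  ⟨1 / 40, [
    ⟨1 / 200, 3397 / 2500, 323 / 100000, 1269 / 100000, 0, 0, true⟩,
    ⟨4 / 125, 3397 / 2500, 817 / 100000, 1 / 50, 0, 1, true⟩]⟩,
  ⟨21 / 200, [
    ⟨11 / 2000, 2759 / 1250, 339 / 100000, 1973 / 100000, 0, 2, true⟩,
    ⟨13 / 2000, 2759 / 1250, 23 / 6250, 1 / 50, 0, 0, false⟩,
    ⟨19 / 1000, 2759 / 1250, 63 / 10000, 1 / 50, 0, 0, false⟩,
    ⟨17 / 500, 2759 / 1250, 421 / 50000, 1 / 50, 0, 0, false⟩]⟩,
  ⟨187 / 1000, [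
    ⟨9 / 500, 2931 / 1000, 613 / 100000, 1 / 50, 0, 0, false⟩,
    ⟨19 / 500, 2931 / 1000, 89 / 10000, 1 / 50, 0, 0, false⟩]⟩]

/-- dimension 31: the row of numbers -/
def r31 : NRow := ⟨31, 5233 / 6250, 34387 / 12500, 8297 / 50000, 3319 / 20000, 243903 / 500000⟩

theorem r31_ok : nrowOK 17 17 17 17 17 r31 = true :=
  List.all_eq_true.1 tab17_ok _ (List.mem_iff_getElem.2 ⟨14, by decide, rfl⟩)

theorem row31 : rowOK r31 p31 laws31 (relD r31.m) = true := by decide +kernel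

theorem ok31 : nearOK p31 laws31 (els31.map Prod.fst) cols31 = true := by decide +kernel

theorem el31 : e7All p31.m els31 = true := by decide +kernel

/-- dimension 33: parameters -/
def p33 : ParQ :=
  ⟨33, 8181 / 50000, 16363 / 100000, 486787 / 1000000, 1 / 50, 7 / 718740, 9 / 50, 11 / 500000, 11 / 500000, 453 / 2500, 1101 / 50000, 23 / 1000, 23 / 50000⟩

/-- dimension 33: the law -/
def laws33 : List LawQ :=
  [⟨88383 / 100000, 297721 / 100000, 140 / 2159, 881 / 5000, 199 / 20000, 11 / 500000, 1, 1⟩]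

/-- dimension 33: the boxes of the mean normal law -/
def els33 : List (ElQ × ℚ × ℚ) := [
  (⟨23 / 1000, 1 / 200, 11753 / 5000, 2333 / 2500⟩, 6753 / 5000, 401 / 100000),
  (⟨23 / 1000, 4 / 125, 11753 / 5000, 1739 / 2000⟩, 6753 / 5000, 401 / 100000),
  (⟨83 / 1000, 11 / 2000, 1901 / 625, 4551 / 5000⟩, 1276 / 625, 29 / 2000),
  (⟨183 / 1000, 11 / 2000, 9933 / 2500, 4139 / 5000⟩, 7433 / 2500, 3251 / 100000)]

/-- dimension 33: the cells -/
def cols33 : List ColQ := [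
  ⟨23 / 1000, [
    ⟨1 / 200, 6753 / 5000, 61 / 20000, 63 / 5000, 0, 0, true⟩,
    ⟨4 / 125, 6753 / 5000, 77 / 10000, 1 / 50, 0, 1, true⟩]⟩,
  ⟨83 / 1000, [
    ⟨11 / 2000, 1276 / 625, 2 / 625, 919 / 50000, 0, 2, true⟩,
    ⟨1 / 100, 1276 / 625, 431 / 100000, 1 / 50, 0, 0, false⟩,
    ⟨9 / 250, 1276 / 625, 817 / 100000, 1 / 50, 0, 0, false⟩]⟩,
  ⟨183 / 1000, [
    ⟨11 / 2000, 7433 / 2500, 2 / 625, 1 / 50, 0, 3, true⟩,
    ⟨17 / 500, 7433 / 2500, 397 / 50000, 1 / 50, 0, 0, false⟩]⟩]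

/-- dimension 33: the row of numbers -/
def r33 : NRow := ⟨33, 88383 / 100000, 297721 / 100000, 8181 / 50000, 16363 / 100000, 486787 / 1000000⟩

theorem r33_ok : nrowOK 17 17 17 17 17 r33 = true :=
  List.all_eq_true.1 tab17_ok _ (List.mem_iff_getElem.2 ⟨16, by decide, rfl⟩)

theorem row33 : rowOK r33 p33 laws33 (relD r33.m) = true := by decide +kernel

theorem ok33 : nearOK p33 laws33 (els33.map Prod.fst) cols33 = true := by decide +kernel

theorem el33 : e7All p33.m els33 = true := by decide +kernel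

/-- dimension 35: parameters -/
def p35 : ParQ :=
  ⟨35, 4033 / 25000, 8067 / 50000, 7592 / 15625, 1 / 50, 1 / 122500, 9 / 50, 11 / 500000, 11 / 500000, 887 / 5000, 577 / 25000, 11 / 500, 23 / 50000⟩

/-- dimension 35: the law -/
def laws35 : List LawQ :=
  [⟨23227 / 25000, 321057 / 100000, 37 / 603, 927 / 5000, 81 / 5000, 11 / 500000, 1, 1⟩]

/-- dimension 35: the boxes of the mean normal law -/
def els35 : List (ElQ × ℚ × ℚ) := [
  (⟨11 / 500, 9 / 2000, 23537 / 10000, 9373 / 10000⟩, 13537 / 10000, 93 / 25000),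
  (⟨11 / 500, 9 / 500, 23537 / 10000, 1133 / 1250⟩, 13537 / 10000, 93 / 25000),
  (⟨31 / 500, 11 / 2000, 28563 / 10000, 9227 / 10000⟩, 18563 / 10000, 21 / 2000),
  (⟨71 / 500, 1 / 250, 3669 / 1000, 8773 / 10000⟩, 2669 / 1000, 2429 / 100000)]

/-- dimension 35: the cells -/
def cols35 : List ColQ := [
  ⟨11 / 500, [
    ⟨9 / 2000, 13537 / 10000, 137 / 50000, 1131 / 100000, 0, 0, true⟩,
    ⟨9 / 500, 13537 / 10000, 547 / 100000, 1 / 50, 0, 1, true⟩,
    ⟨17 / 500, 13537 / 10000, 751 / 100000, 1 / 50, 0, 0, false⟩]⟩,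
  ⟨31 / 500, [
    ⟨11 / 2000, 18563 / 10000, 303 / 100000, 1703 / 100000, 0, 2, true⟩,
    ⟨3 / 200, 18563 / 10000, 499 / 100000, 1 / 50, 0, 0, false⟩,
    ⟨9 / 250, 18563 / 10000, 773 / 100000, 1 / 50, 0, 0, false⟩]⟩,
  ⟨71 / 500, [
    ⟨1 / 250, 2669 / 1000, 129 / 50000, 1673 / 100000, 0, 3, true⟩,
    ⟨3 / 500, 2669 / 1000, 79 / 25000, 1 / 50, 0, 0, false⟩,
    ⟨7 / 250, 2669 / 1000, 341 / 50000, 1 / 50, 0, 0, false⟩]⟩,
  ⟨179 / 1000, [
    ⟨1 / 25, 1882 / 625, 163 / 20000, 1 / 50, 0, 0, false⟩]⟩]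

/-- dimension 35: the row of numbers -/
def r35 : NRow := ⟨35, 23227 / 25000, 321057 / 100000, 4033 / 25000, 8067 / 50000, 7592 / 15625⟩

theorem r35_ok : nrowOK 17 17 17 17 17 r35 = true :=
  List.all_eq_true.1 tab17_ok _ (List.mem_iff_getElem.2 ⟨18, by decide, rfl⟩)

theorem row35 : rowOK r35 p35 laws35 (relD r35.m) = true := by decide +kernel

theorem ok35 : nearOK p35 laws35 (els35.map Prod.fst) cols35 = true := by decide +kernel

theorem el35 : e7All p35.m els35 = true := by decide +kernel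

end Vale.Agent.P224.R2.H925.TbO
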